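import Vale.Agent.P073Z.Gauge
import Vale.Agent.P073Z.RCX2
import Vale.Agent.P073Z.DISC2
import Vale.Agent.P073Z.A12
import Vale.Agent.P073Z.MAN.Ex

/-!
# Tools for the approximation of surfaces
-/

open Set Metric Topology Filter

namespace P073

namespace Apx2

section fine

variable {T : Type} [PseudoMetricSpace T] {G : Set T} {ρ t t' : T → ℝ}

/-- the gauge `ρ` is much finer than `t` -/
structure Fine (ρ t : T → ℝ) (G : Set T) : Prop where
  gauge : Gauge ρ G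
  small : ∀ x ∈ G, Small t (G ∩ closedBall x (100 * ρ x))
  lt : ∀ x ∈ G, ∀ y ∈ G, dist x y ≤ 100 * ρ x → 100 * ρ x < t y
  slow : ∀ x ∈ G, ∀ y, dist x y ≤ 100 * ρ x → ρ y ≤ 2 * ρ x ∧ ρ x ≤ 2 * ρ y

theorem exists_fine (h : Gauge t G) : ∃ ρ, Fine ρ t G :=
  let ⟨ρ, h1, h2, h3, h4⟩ := h.exists_fine (N := 100) (by norm_num)
  ⟨ρ, h1, h2, h3, h4⟩

theorem Fine.of_le (h : Fine ρ t G) (hle : ∀ x ∈ G, t x ≤ t' x) : Fine ρ t' G :=
  ⟨h.gauge, fun x hx => (h.small x hx).of_le fun y hy => hle y hy.1,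
    fun x hx y hy hd => (h.lt x hx y hy hd).trans_le (hle y hy), h.slow⟩

theorem exists_fine₂ (h : Gauge t G) (h' : Gauge t' G) : ∃ ρ, Fine ρ t G ∧ Fine ρ t' G :=
  let ⟨ρ, h1⟩ := exists_fine (h.min h')
  ⟨ρ, h1.of_le fun _ _ => min_le_left _ _, h1.of_le fun _ _ => min_le_right _ _⟩

theorem Fine.pos (h : Fine ρ t G) {x : T} (hx : x ∈ G) : 0 < ρ x := h.gauge.2 x hx

theorem Fine.lt_self (h : Fine ρ t G) {x : T} (hx : x ∈ G) : 100 * ρ x < t x :=
  h.lt x hx x hx (by rw [dist_self]; linarith [h.pos hx])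

theorem Fine.le (h : Fine ρ t G) {x : T} (hx : x ∈ G) : ρ x ≤ t x := by
  linarith [h.lt_self hx, h.pos hx]

/-- a point near `a` at the scale of `a` is near `a` at its own scale -/
theorem Fine.near (h : Fine ρ t G) {a w : T} (ha : a ∈ G) (hd : dist w a < 3 * ρ a) :
    ρ a ≤ 2 * ρ w ∧ ρ w ≤ 2 * ρ a := by
  have h1 := h.slow a ha w (by rw [dist_comm]; linarith [h.pos ha])
  exact ⟨h1.2, h1.1⟩

/-- local finiteness of families which lie over a locally finite family -/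
theorem Fine.lf (h : Fine ρ t G) {S' ι : Type} [TopologicalSpace S'] {S : Set S'} {π : S' → T}
    (hπ : ContinuousOn π S) (hm : MapsTo π S G) {C : ι → Set T} (hC : ∀ i, C i ⊆ G)
    (hfin : ∀ w ∈ G, {i | (C i ∩ ball w (t w)).Nonempty}.Finite) {P : ι → Prop}
    {R : ι → Set S'} (hR : ∀ i, P i → ∀ y ∈ R i, y ∈ S ∧ ∃ a ∈ C i, dist (π y) a < 3 * ρ a)
    {y : S'} (hy : y ∈ S) : ∃ U ∈ 𝓝 y, {i | P i ∧ (R i ∩ U).Nonempty}.Finite := by
  have hw := hm hy
  have h1 : ∀ᶠ z in 𝓝[S] y, dist (π z) (π y) < ρ (π y) :=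
    (hπ y hy).eventually (ball_mem_nhds _ (h.pos hw))
  rw [eventually_nhdsWithin_iff] at h1
  refine ⟨_, h1, (hfin _ hw).subset ?_⟩
  rintro i ⟨hi, z, hz, hzU⟩
  obtain ⟨hzS, a, ha, hd⟩ := hR i hi z hz
  have h2 := hzU hzS
  have h3 := (h.near (hC i ha) hd).1
  have h4 := (h.slow _ hw (π z) (by rw [dist_comm]; linarith [h.pos hw])).1
  have h5 := dist_triangle_left a (π y) (π z)
  have h6 := h.lt_self hw
  refine ⟨a, ha, ?_⟩
  rw [mem_ball]
  linarith [h.pos hw]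

end fine

variable {E : Type} [NormedAddCommGroup E] [NormedSpace ℝ E]

/-- radial arcs in a ball -/
theorem exists_rays {n : ℕ} {D B : Set E} (h : ConBall n D B) :
    ∃ c ∈ D, ∃ ray : E → Set E, ∀ a ∈ B, IsArc (ray a) c a ∧ ray a ⊆ D ∧
      ∀ a' ∈ B, a ≠ a' → ray a ∩ ray a' ⊆ {c} := by
  obtain ⟨hB, φ, hφ⟩ := h
  have h0 : (0 : Fin n → ℝ) ∈ closedBall (0 : Fin n → ℝ) 1 := mem_closedBall_self zero_le_one
  have hn : ∀ a ∈ B, ‖φ.toFun a‖ = 1 := fun a ha => by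
    have h1 : φ.toFun a ∈ sphere (0 : Fin n → ℝ) 1 := hφ ▸ mem_image_of_mem _ ha
    exact mem_sphere_zero_iff_norm.mp h1
  have hs : ∀ a ∈ B, segment ℝ 0 (φ.toFun a) ⊆ closedBall (0 : Fin n → ℝ) 1 := fun a ha =>
    (convex_closedBall _ _).segment_subset h0 (φ.mapsTo (hB ha))
  refine ⟨φ.invFun 0, φ.mapsTo_inv h0, fun a => φ.invFun '' segment ℝ 0 (φ.toFun a),
    fun a ha => ⟨?_, ?_, fun a' ha' hne => ?_⟩⟩
  · have h1 : (0 : Fin n → ℝ) ≠ φ.toFun a := fun h2 => by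
      have h3 := hn a ha
      rw [← h2, norm_zero] at h3
      exact zero_ne_one h3
    have h2 := (isArc_segment h1).image φ.symm (hs a ha)
    have h3 : φ.symm.toFun (φ.toFun a) = a := φ.left_inv (hB ha)
    rw [h3] at h2
    exact h2
  · rintro _ ⟨z, hz, rfl⟩
    exact φ.mapsTo_inv (hs a ha hz)
  · rintro _ ⟨⟨z, hz, rfl⟩, z', hz', he⟩
    have h1 : z' = z := φ.symm.injOn (hs a' ha' hz') (hs a ha hz) he
    rw [h1] at hz'
    rw [segment_eq_image] at hz hz'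
    obtain ⟨s, hs0, rfl⟩ := hz
    obtain ⟨s', hs', he'⟩ := hz'
    simp only [smul_zero, zero_add] at he' ⊢
    have h2 := congrArg norm he'
    rw [norm_smul, norm_smul, hn a ha, hn a' ha', mul_one, mul_one, Real.norm_of_nonneg hs0.1,
      Real.norm_of_nonneg hs'.1] at h2
    rw [h2] at he'
    by_cases h3 : s = 0
    · rw [h3, zero_smul]
      rfl
    · exact absurd (φ.injOn (hB ha) (hB ha') (smul_right_injective _ h3 he').symm) hne

/-- arcs in connected subsets of manifolds -/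
theorem exists_arc {n : ℕ} {X : Set E} (h : PLMan n X) {p q : E} (hp : p ∈ X)
    (hq : q ∈ connectedComponentIn X p) (hne : p ≠ q) : ∃ A, IsArc A p q ∧ A ⊆ X := by
  have h1 : PLMan n (connectedComponentIn X p) := by
    intro x hx
    obtain ⟨C, B, hC, hxC, hCX, hn⟩ := h x (connectedComponentIn_subset _ _ hx)
    refine ⟨C, B, hC, hxC, ?_, nhdsWithin_mono _ (connectedComponentIn_subset _ _) hn⟩
    rw [connectedComponentIn_eq hx]
    have h2 : IsPreconnected C :=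
      (hC.isConnected_int.isPreconnected).subset_closure sdiff_subset hC.subset_closure_int
    exact h2.subset_connectedComponentIn hxC.1 hCX
  obtain ⟨A, hA, hs⟩ := path.1 h1 isOpen_univ
    (by rw [inter_univ]; exact isPreconnected_connectedComponentIn)
    ⟨mem_connectedComponentIn hp, mem_univ _⟩ ⟨hq, mem_univ _⟩ hne
  exact ⟨A, hA, fun x hx => connectedComponentIn_subset _ _ (hs hx).1⟩

/-- a circle minus a connected set is connected -/
theorem circle_diff {J C : Set E} (hJ : IsCircle J) (hC : IsPreconnected C) (hCJ : C ⊆ J) :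
    IsPreconnected (J \ C) := by
  refine isPreconnected_of_forall_pair fun a ha b hb => ?_
  by_cases hab : a = b
  · exact ⟨{a}, singleton_subset_iff.mpr ha, rfl, hab.symm, isPreconnected_singleton⟩
  obtain ⟨A₁, A₂, h1, h2, h3, h4, _⟩ := arcs.2.2.1 hJ ha.1 hb.1 hab
  have h5 : ∀ x ∈ C, x ∈ A₁ → x ∈ A₂ → False := fun x hx hx1 hx2 => by
    have h6 : x ∈ ({a, b} : Set E) := h4 ▸ ⟨hx1, hx2⟩
    rcases h6 with rfl | rfl
    · exact ha.2 hx
    · exact hb.2 hx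
  rcases isPreconnected_iff_subset_of_disjoint_closed.mp hC A₁ A₂ h1.isClosed h2.isClosed
    (h3 ▸ hCJ) (eq_empty_of_forall_notMem fun x hx => h5 x hx.1 hx.2.1 hx.2.2) with h6 | h6
  · exact ⟨A₂, fun x hx => ⟨h3 ▸ Or.inr hx, fun hc => h5 x hc (h6 hc) hx⟩, h2.left_mem,
      h2.right_mem, h2.isConnected.isPreconnected⟩
  · exact ⟨A₁, fun x hx => ⟨h3 ▸ Or.inl hx, fun hc => h5 x hc hx (h6 hc)⟩, h1.left_mem,
      h1.right_mem, h1.isConnected.isPreconnected⟩

/-- a sphere is not convex -/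
theorem not_convex {n : ℕ} {J : Set E} (hJ : ConSphere n J) (hne : J.Nonempty) : ¬ Convex ℝ J := by
  intro hc
  obtain ⟨c, hcJ⟩ := hne
  refine nr.2 (fun q : ℝ × E => (1 - q.1) • q.2 + q.1 • c) c hJ (by fun_prop) ?_ ?_ ?_
  · rintro ⟨s, x⟩ ⟨hs, hx⟩
    exact hc hx hcJ (sub_nonneg.mpr hs.2) hs.1 (sub_add_cancel 1 s)
  · intro x _
    simp only [sub_zero, one_smul, zero_smul, add_zero]
  · intro x _
    simp only [sub_self, one_smul, zero_smul, zero_add]

/-- the end point of an arc which leaves a disc lies on the boundary -/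
theorem mem_bdry {S D B A : Set E} {a b : E} (hS : PLMan 2 S) (hD : ConBall 2 D B) (hDS : D ⊆ S)
    (hA : IsArc A a b) (hAS : A ⊆ S) (h : A ∩ D = {a}) : a ∈ B := by
  by_contra hB
  have ha : a ∈ A ∩ D := h ▸ rfl
  have h1 : D ∈ 𝓝[A] a := nhdsWithin_mono _ hAS ((manex.2.2.2.2.2 hS hD hDS a ha.2).mpr hB)
  have h2 := hA.isConnected.isPreconnected.preperfect_of_nontrivial
    ⟨a, hA.left_mem, b, hA.right_mem, hA.ne⟩ a hA.left_mem
  rw [accPt_iff_frequently] at h2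
  obtain ⟨z, hz, hz'⟩ := (h2.and_eventually (eventually_nhdsWithin_iff.mp h1)).exists
  have h3 : z ∈ A ∩ D := ⟨hz.2, hz' hz.2⟩
  rw [h] at h3
  exact hz.1 h3

omit [NormedSpace ℝ E] in
/-- a connected set which meets a relatively open and closed piece lies in it -/
theorem subset_of_clopen' {S Y T : Set E} (ho : ∀ x ∈ Y, x ∈ T → Y ∈ 𝓝[S] x)
    (hc : ∀ x ∈ T, x ∈ closure Y → x ∈ Y) (hT : IsPreconnected T) (hTS : T ⊆ S)
    (hne : (T ∩ Y).Nonempty) : T ⊆ Y := by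
  obtain ⟨a, ha, ha'⟩ := hne
  intro b hb
  refine hT.induction₂' (fun x y => x ∈ Y → y ∈ Y) (fun x hx => ?_)
    (fun _ _ _ _ _ _ h1 h2 h3 => h2 (h1 h3)) ha hb ha'
  by_cases h1 : x ∈ Y
  · filter_upwards [nhdsWithin_mono _ hTS (ho x h1 hx)] with y hy
    exact ⟨fun _ => hy, fun _ => h1⟩
  · have h2 : (closure Y)ᶜ ∈ 𝓝 x := isClosed_closure.isOpen_compl.mem_nhds fun h => h1 (hc x hx h)
    filter_upwards [mem_nhdsWithin_of_mem_nhds h2] with y hy
    exact ⟨fun h => absurd h h1, fun h => absurd (subset_closure h) hy⟩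

end Apx2

end P073
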