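import Vale.Agent.P073Z.Sk2
import Vale.Agent.P073Z.APX2.Top

/-!
# The one-skeleton of a complex is realised in an approximating surface
-/

open Set Metric Topology Filter

namespace P073

namespace Apx2

variable {E : Type} [NormedAddCommGroup E] [NormedSpace ℝ E] {G : Set E} {S : Set E3}
  {π : E3 → E}

theorem vertex_disc {t ρ₁ θ₁ ρ₀ θ₀ ρ : E → ℝ} (hm : MapsTo π S G) (h₁ : Approx G S π θ₁ ρ₁)
    (h₀ : Approx G S π θ₀ ρ₀) (f₁ : Fine ρ₁ t G) (f₀ : Fine ρ₀ θ₁ G) (f : Fine ρ θ₀ G)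
    (hle : ∀ x ∈ G, ρ x ≤ ρ₁ x) {v : E} (hv : v ∈ G) {p : E3} (hp : p ∈ S)
    (hd : dist (π p) v < ρ v) : ∃ D B, ConBall 2 D B ∧ D ⊆ S ∧
      (∀ y ∈ D, dist (π y) v < 3 * ρ₁ v) ∧ ∀ y ∈ S, dist (π y) v < ρ v → y ∈ D \ B := by
  let 𝒦 : Set (Set E3) := {K | K ⊆ S ∧ IsPreconnected K ∧ p ∈ K ∧ Small ρ₀ (π '' K)}
  have hw := hm hp
  have hp𝒦 : ({p} : Set E3) ∈ 𝒦 := ⟨singleton_subset_iff.mpr hp, isPreconnected_singleton, rfl, by
    rw [image_singleton]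
    exact small_singleton (f₀.pos hw)⟩
  obtain ⟨D, B, hD, hDS, hKD, hsm⟩ := h₁.2.2 (⋃₀ 𝒦) (sUnion_subset fun K hK => hK.1)
    (isPreconnected_sUnion p 𝒦 (fun K hK => hK.2.2.1) fun K hK => hK.2.1)
    ((f₀.small _ hw).mono (by
      rintro _ ⟨y, ⟨K, hK, hy⟩, rfl⟩
      refine ⟨hm (hK.1 hy), mem_closedBall'.mpr ?_⟩
      have h1 := hK.2.2.2 _ (mem_image_of_mem π hK.2.2.1) _ (mem_image_of_mem π hy)
      linarith [f₀.pos hw]))
  refine ⟨D, B, hD, hDS, fun y hy => ?_, fun y hy hy' => ?_⟩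
  · have h1 := hsm _ (mem_image_of_mem π (hKD ⟨_, hp𝒦, rfl⟩).1) _ (mem_image_of_mem π hy)
    have h2 := hle v hv
    have h3 := (f₁.near hv (w := π p) (by linarith [f₁.pos hv])).2
    have h4 := dist_triangle_left (π y) v (π p)
    linarith
  · have h1 := f.pos hv
    obtain ⟨K, hKS, hK, hpK, hyK, hs⟩ := h₀.2.1 p hp y hy (f.small v hv _
      ⟨hw, mem_closedBall.mpr (by linarith)⟩ _ ⟨hm hy, mem_closedBall.mpr (by linarith)⟩)
    exact hKD ⟨K, ⟨hKS, hK, hpK, hs⟩, hyK⟩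

theorem edge_arc {t δ θ δ₀ : E → ℝ} (hS : PLMan 2 S) (hπ : ContinuousOn π S) (hm : MapsTo π S G)
    (h : Approx G S π θ δ) (f : Fine δ t G) (f₀ : Fine δ₀ θ G) (hle : ∀ x ∈ G, δ₀ x ≤ δ x)
    {q : E → E3} (hq : ∀ a ∈ G, q a ∈ S ∧ dist (π (q a)) a < δ₀ a) {e : Set E} (he : e ⊆ G)
    (hc : IsPreconnected e) {x₀ x₁ : E} (h₀ : x₀ ∈ e) (h₁ : x₁ ∈ e) (hne : q x₀ ≠ q x₁) :
    ∃ A, IsArc A (q x₀) (q x₁) ∧ ∀ y ∈ A, y ∈ S ∧ ∃ a ∈ e, dist (π y) a < 3 * δ a := by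
  let T : Set E3 := {y | y ∈ S ∧ ∃ a ∈ e, dist (π y) a < 3 * δ a}
  have hT : PLMan 2 T := hS.of_nhds (fun y hy => hy.1) (by
    rintro y ⟨hy, a, ha, hd⟩
    have h1 : ∀ᶠ z in 𝓝[S] y, π z ∈ ball a (3 * δ a) :=
      (hπ y hy).eventually (isOpen_ball.mem_nhds hd)
    filter_upwards [h1, self_mem_nhdsWithin] with z hz hzS
    exact ⟨hzS, a, ha, hz⟩)
  have hqT : ∀ a ∈ e, q a ∈ T := fun a ha => ⟨(hq a (he ha)).1, a, ha, by
    linarith [(hq a (he ha)).2, hle a (he ha), f.pos (he ha)]⟩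
  have key : connectedComponentIn T (q x₀) = connectedComponentIn T (q x₁) := by
    refine hc.induction₂' (fun a b => connectedComponentIn T (q a) = connectedComponentIn T (q b))
      (fun a ha => ?_) (fun _ _ _ _ _ _ h1 h2 => h1.trans h2) h₀ h₁
    have haG := he ha
    have h1 := f₀.pos haG
    filter_upwards [mem_nhdsWithin_of_mem_nhds (ball_mem_nhds a h1), self_mem_nhdsWithin]
      with b hb hbe
    have h2 : dist b a < δ₀ a := hb
    have h3 := (f₀.near haG (w := b) (by linarith)).2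
    obtain ⟨h4, h5⟩ := hq a haG
    obtain ⟨h6, h7⟩ := hq b (he hbe)
    have h8 := dist_triangle (π (q b)) b a
    obtain ⟨K, hKS, hK, haK, hbK, hs⟩ := h.2.1 _ h4 _ h6 (f₀.small a haG _
      ⟨hm h4, mem_closedBall.mpr (by linarith)⟩ _ ⟨hm h6, mem_closedBall.mpr (by linarith)⟩)
    have hKT : K ⊆ T := fun y hy => ⟨hKS hy, a, ha, by
      have h9 := hs _ (mem_image_of_mem π haK) _ (mem_image_of_mem π hy)
      have h10 := hle a haG
      have h11 := (f.near haG (w := π (q a)) (by linarith)).2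
      have h12 := dist_triangle_left (π y) a (π (q a))
      linarith⟩
    have h9 := connectedComponentIn_eq (hK.subset_connectedComponentIn haK hKT hbK)
    exact ⟨h9, h9.symm⟩
  exact exists_arc hT (hqT _ h₀) (key ▸ mem_connectedComponentIn (hqT _ h₁)) hne

theorem cut_arc (hS : PLMan 2 S) {A D B D' B' : Set E3} {p q : E3} (hA : IsArc A p q)
    (hAS : A ⊆ S) (hD : ConBall 2 D B) (hD' : ConBall 2 D' B') (hDS : D ⊆ S) (hDS' : D' ⊆ S)
    (hd : Disjoint D D') (hp : p ∈ D) (hq : q ∈ D') : ∃ M a b, IsArc M a b ∧ M ⊆ A ∧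
      a ∈ B ∧ M ∩ D = {a} ∧ b ∈ B' ∧ M ∩ D' = {b} := by
  obtain ⟨a, ha, A₁, h1, h2, h3⟩ := arcs.2.2.2.2.2.2 hA hD.isClosed hp
    (fun h => disjoint_left.mp hd h hq)
  obtain ⟨b, _, A₂, h4, h5, h6⟩ := arcs.2.2.2.2.2.2 h1.symm hD'.isClosed hq
    (disjoint_left.mp hd ha.2)
  have h7 : A₂ ∩ D = {a} := Subset.antisymm (h3 ▸ inter_subset_inter_left _ h5)
    (singleton_subset_iff.mpr ⟨h4.right_mem, ha.2⟩)
  have h8 := (h5.trans h2).trans hAS
  exact ⟨A₂, a, b, h4.symm, h5.trans h2, mem_bdry hS hD hDS h4.symm h8 h7, h7,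
    mem_bdry hS hD' hDS' h4 h8 h6, h6⟩

theorem tube_gauge (K : RCx E) {ρ : E → ℝ} (hρ : Gauge ρ K.carrier) :
    ∃ δ, Gauge δ K.carrier ∧ ∀ w ∈ K.carrier, ∀ e e', K.dim e = 1 → K.dim e' = 1 → e ≠ e' →
      (K.cell e ∩ ball w (δ w)).Nonempty → (K.cell e' ∩ ball w (δ w)).Nonempty →
      ∃ x ∈ K.bd e, dist w x < ρ x := by
  obtain ⟨δ, hδ, _, _, hp⟩ := exists_gauge (X := K.carrier)
    (p := fun w a => ∀ e e', K.dim e = 1 → K.dim e' = 1 → e ≠ e' →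
      (K.cell e ∩ ball w a).Nonempty → (K.cell e' ∩ ball w a).Nonempty →
      ∃ x ∈ K.bd e, dist w x < ρ x)
    (fun x _ a b _ hab hb e e' h1 h2 h3 h4 h5 => hb e e' h1 h2 h3
      (h4.mono (inter_subset_inter_right _ (ball_subset_ball hab)))
      (h5.mono (inter_subset_inter_right _ (ball_subset_ball hab)))) fun x hx => by
      obtain ⟨U, hU, hU'⟩ := K.exists_nhds hx
      obtain ⟨s, hs, hb⟩ := Metric.mem_nhds_iff.mp hU
      refine ⟨s / 2, half_pos hs, ?_⟩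
      filter_upwards [mem_nhdsWithin_of_mem_nhds (ball_mem_nhds x (half_pos hs)),
        mem_nhdsWithin_of_mem_nhds (ball_mem_nhds x (hρ.2 x hx))] with y hy hy' e e' h1 h2 h3 h4 h5
      have h6 : ball y (s / 2) ⊆ U := fun z hz => hb (by
        have h7 := dist_triangle z y x
        have h8 : dist z y < s / 2 := hz
        have h9 : dist y x < s / 2 := hy
        rw [mem_ball]
        linarith)
      exact ⟨x, K.inter_subset_bd h3 (by omega) ⟨hU' e (h4.mono (inter_subset_inter_right _ h6)),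
        hU' e' (h5.mono (inter_subset_inter_right _ h6))⟩, hy'⟩
  exact ⟨δ, hδ, hp⟩

theorem ends (K : RCx E) {e : K.ι} (he : K.dim e = 1) : ∃ (p q : E) (j₁ j₂ : K.ι),
    IsArc (K.cell e) p q ∧ K.cell j₁ = {p} ∧ K.cell j₂ = {q} ∧ j₁ ≠ j₂ ∧
      ∀ j, K.cell j ⊆ K.bd e ↔ j = j₁ ∨ j = j₂ := by
  obtain ⟨p, q, j₁, j₂, h1, h2, _, _, h5, h6, h7⟩ := K.exists_edge he
  refine ⟨p, q, j₁, j₂, h1, h5, h6, h7, fun j => ⟨fun h => ?_, ?_⟩⟩
  · have h8 := K.dim_lt h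
    obtain ⟨x, hx⟩ := K.exists_vertex (i := j) (by omega)
    rw [hx, h2, singleton_subset_iff] at h
    rcases h with rfl | rfl
    · exact Or.inl (K.cell_injective (hx.trans h5.symm))
    · exact Or.inr (K.cell_injective (hx.trans h6.symm))
  · rintro (rfl | rfl)
    · rw [h5, h2, singleton_subset_iff]
      exact Or.inl rfl
    · rw [h6, h2, singleton_subset_iff]
      exact Or.inr rfl

/-- assembling vertex discs and middle arcs -/
theorem assemble (K : RCx E) {D B M : K.ι → Set E3} {a : K.ι → K.ι → E3}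
    (hD : ∀ v, K.dim v = 0 → ConBall 2 (D v) (B v))
    (hDD : ∀ v u, K.dim v = 0 → K.dim u = 0 → (D v ∩ D u).Nonempty → v = u)
    (hM : ∀ e, K.dim e = 1 → ∀ j₁ j₂, K.cell j₁ ⊆ K.bd e → K.cell j₂ ⊆ K.bd e → j₁ ≠ j₂ →
      IsArc (M e) (a e j₁) (a e j₂))
    (ha : ∀ e, K.dim e = 1 → ∀ j, K.cell j ⊆ K.bd e → a e j ∈ B j ∧ M e ∩ D j = {a e j})
    (hMD : ∀ e v, K.dim e = 1 → K.dim v = 0 → (M e ∩ D v).Nonempty → K.cell v ⊆ K.bd e)
    (hMM : ∀ e e', K.dim e = 1 → K.dim e' = 1 → (M e ∩ M e').Nonempty → e = e') :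
    ∃ R : K.ι → Set E3, (∀ i, K.dim i ≤ 1 → ConBall (K.dim i) (R i) (K.rbd R i)) ∧
      (∀ i j, K.dim i ≤ 1 → K.dim j ≤ 1 → i ≠ j →
        Disjoint (R i \ K.rbd R i) (R j \ K.rbd R j)) ∧
      (∀ v, K.dim v = 0 → R v ⊆ D v) ∧ ∀ e, K.dim e = 1 → R e ⊆ M e ∪ K.rbd D e := by
  classical
  choose! c hc ray hray using fun v (hv : K.dim v = 0) => exists_rays (hD v hv)
  let R : K.ι → Set E3 := fun i =>
    if K.dim i = 0 then {c i} else M i ∪ K.rbd (fun j => ray j (a i j)) i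
  have hR0 : ∀ v, K.dim v = 0 → R v = {c v} := fun v hv => if_pos hv
  have hR1 : ∀ e, K.dim e = 1 → R e = M e ∪ K.rbd (fun j => ray j (a e j)) e :=
    fun e he => if_neg (by omega)
  have hd0 : ∀ e, K.dim e = 1 → ∀ j, K.cell j ⊆ K.bd e → K.dim j = 0 := fun e he j hj => by
    have := K.dim_lt hj
    omega
  have hrayD : ∀ e, K.dim e = 1 → ∀ j, K.cell j ⊆ K.bd e → ray j (a e j) ⊆ D j :=
    fun e he j hj => (hray j (hd0 e he j hj) _ (ha e he j hj).1).2.1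
  have hcm : ∀ e, K.dim e = 1 → ∀ j, K.cell j ⊆ K.bd e → c j ∈ K.rbd R e := fun e he j hj =>
    K.mem_rbd.mpr ⟨j, hj, by rw [hR0 j (hd0 e he j hj)]; rfl⟩
  have haM : ∀ e, K.dim e = 1 → ∀ j, K.cell j ⊆ K.bd e → a e j ∈ M e := fun e he j hj => by
    have h1 : a e j ∈ M e ∩ D j := (ha e he j hj).2 ▸ rfl
    exact h1.1
  have hrr : ∀ e e', K.dim e = 1 → K.dim e' = 1 → e ≠ e' → ∀ j, K.cell j ⊆ K.bd e →
      K.cell j ⊆ K.bd e' → ray j (a e j) ∩ ray j (a e' j) ⊆ {c j} := by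
    intro e e' he he' hne j hj hj'
    refine (hray j (hd0 e he j hj) _ (ha e he j hj).1).2.2 _ (ha e' he' j hj').1 fun h => hne ?_
    exact hMM e e' he he' ⟨_, haM e he j hj, h ▸ haM e' he' j hj'⟩
  have hMr : ∀ e e', K.dim e = 1 → K.dim e' = 1 → e ≠ e' → ∀ j, K.cell j ⊆ K.bd e' →
      ∀ y ∈ M e, y ∈ ray j (a e' j) → y ∈ K.rbd R e ∧ y ∈ K.rbd R e' := by
    intro e e' he he' hne j hj' y hy hy'
    have h1 := hrayD e' he' j hj' hy'
    have hj := hMD e j he (hd0 e' he' j hj') ⟨y, hy, h1⟩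
    have h2 : y ∈ M e ∩ D j := ⟨hy, h1⟩
    rw [(ha e he j hj).2] at h2
    have h3 : y = c j := hrr e e' he he' hne j hj hj'
      ⟨h2 ▸ (hray j (hd0 e he j hj) _ (ha e he j hj).1).1.right_mem, hy'⟩
    exact ⟨h3 ▸ hcm e he j hj, h3 ▸ hcm e' he' j hj'⟩
  have hve : ∀ v e, K.dim v = 0 → K.dim e = 1 → c v ∈ R e → c v ∈ K.rbd R e := by
    intro v e hv he h
    rw [hR1 e he] at h
    rcases h with h | h
    · exact hcm e he v (hMD e v he hv ⟨_, h, hc v hv⟩)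
    · obtain ⟨j, hj, h1⟩ := K.mem_rbd.mp h
      have h2 := hDD v j hv (hd0 e he j hj) ⟨_, hc v hv, hrayD e he j hj h1⟩
      exact h2 ▸ hcm e he j hj
  refine ⟨R, fun i hi => ?_, fun i j hi hj hne => ?_, fun v hv => ?_, fun e he => ?_⟩
  · rcases Nat.le_one_iff_eq_zero_or_eq_one.mp hi with h0 | h1
    · have h2 : K.rbd R i = ∅ := eq_empty_of_forall_notMem fun y hy => by
        obtain ⟨j, hj, _⟩ := K.mem_rbd.mp hy
        have := K.dim_lt hj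
        omega
      rw [h0, h2, hR0 i h0]
      exact conBall_zero _
    · obtain ⟨_, _, j₁, j₂, _, _, _, hne, hj⟩ := ends K h1
      have k₁ := (hj j₁).mpr (Or.inl rfl)
      have k₂ := (hj j₂).mpr (Or.inr rfl)
      have h2 : K.rbd R i = {c j₁, c j₂} := by
        apply Subset.antisymm
        · intro y hy
          obtain ⟨j, h3, h4⟩ := K.mem_rbd.mp hy
          rw [hR0 j (hd0 i h1 j h3)] at h4
          rcases (hj j).mp h3 with rfl | rfl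
          · exact Or.inl h4
          · exact Or.inr h4
        · rintro _ (rfl | rfl)
          · exact hcm i h1 j₁ k₁
          · exact hcm i h1 j₂ k₂
      have h3 : R i = ray j₁ (a i j₁) ∪ M i ∪ ray j₂ (a i j₂) := by
        rw [hR1 i h1]
        apply Subset.antisymm
        · rintro y (hy | hy)
          · exact Or.inl (Or.inr hy)
          · obtain ⟨j, h3, h4⟩ := K.mem_rbd.mp hy
            rcases (hj j).mp h3 with rfl | rfl
            · exact Or.inl (Or.inl h4)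
            · exact Or.inr h4
        · rintro y ((hy | hy) | hy)
          · exact Or.inr (K.mem_rbd.mpr ⟨j₁, k₁, hy⟩)
          · exact Or.inl hy
          · exact Or.inr (K.mem_rbd.mpr ⟨j₂, k₂, hy⟩)
      rw [h1, h2, h3]
      refine (((hray j₁ (hd0 i h1 j₁ k₁) _ (ha i h1 j₁ k₁).1).1.trans (hM i h1 j₁ j₂ k₁ k₂ hne)
        ?_).trans (hray j₂ (hd0 i h1 j₂ k₂) _ (ha i h1 j₂ k₂).1).1.symm ?_).conBall
      · rw [← (ha i h1 j₁ k₁).2]
        exact fun y hy => ⟨hy.2, hrayD i h1 j₁ k₁ hy.1⟩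
      · rw [← (ha i h1 j₂ k₂).2]
        rintro y ⟨hy | hy, hy'⟩
        · exact absurd (hDD j₁ j₂ (hd0 i h1 j₁ k₁) (hd0 i h1 j₂ k₂)
            ⟨y, hrayD i h1 j₁ k₁ hy, hrayD i h1 j₂ k₂ hy'⟩) hne
        · exact ⟨hy, hrayD i h1 j₂ k₂ hy'⟩
  · rw [disjoint_left]
    rintro y ⟨h1, h2⟩ ⟨h3, h4⟩
    rcases Nat.le_one_iff_eq_zero_or_eq_one.mp hi with hi | hi <;>
      rcases Nat.le_one_iff_eq_zero_or_eq_one.mp hj with hj | hj
    · rw [hR0 i hi] at h1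
      rw [hR0 j hj] at h3
      exact hne (hDD i j hi hj ⟨y, h1 ▸ hc i hi, h3 ▸ hc j hj⟩)
    · rw [hR0 i hi] at h1
      exact h4 (h1 ▸ hve i j hi hj (h1 ▸ h3))
    · rw [hR0 j hj] at h3
      exact h2 (h3 ▸ hve j i hj hi (h3 ▸ h1))
    · rw [hR1 i hi] at h1
      rw [hR1 j hj] at h3
      rcases h1 with h1 | h1 <;> rcases h3 with h3 | h3
      · exact hne (hMM i j hi hj ⟨y, h1, h3⟩)
      · obtain ⟨v, hv, h5⟩ := K.mem_rbd.mp h3
        exact h2 (hMr i j hi hj hne v hv y h1 h5).1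
      · obtain ⟨v, hv, h5⟩ := K.mem_rbd.mp h1
        exact h2 (hMr j i hj hi hne.symm v hv y h3 h5).2
      · obtain ⟨v, hv, h5⟩ := K.mem_rbd.mp h1
        obtain ⟨u, hu, h6⟩ := K.mem_rbd.mp h3
        obtain rfl := hDD v u (hd0 i hi v hv) (hd0 j hj u hu)
          ⟨y, hrayD i hi v hv h5, hrayD j hj u hu h6⟩
        have h7 : y = c v := hrr i j hi hj hne v hv hu ⟨h5, h6⟩
        exact h2 (h7 ▸ hcm i hi v hv)
  · rw [hR0 v hv]
    exact singleton_subset_iff.mpr (hc v hv)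
  · rw [hR1 e he]
    refine union_subset_union_right _ fun y hy => ?_
    obtain ⟨j, hj, h1⟩ := K.mem_rbd.mp hy
    exact K.mem_rbd.mpr ⟨j, hj, hrayD e he j hj h1⟩

/-- the one-skeleton -/
theorem one_skel (K : RCx E) (Θ : (E → ℝ) → (E → ℝ))
    (hΘ : ∀ r, Gauge r K.carrier → Gauge (Θ r) K.carrier) {g : E → ℝ} (hg : Gauge g K.carrier) :
    ∃ 𝓡 : Finset (E → ℝ), (∀ r ∈ 𝓡, Gauge r K.carrier) ∧ ∀ (S : Set E3) (π : E3 → E),
      PLMan 2 S → ContinuousOn π S → MapsTo π S K.carrier →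
      (∀ r ∈ 𝓡, Approx K.carrier S π (Θ r) r) → ∃ R : K.ι → Set E3, Realiz K 1 R ∧
        ∀ i, K.dim i ≤ 1 → ∀ y ∈ R i, y ∈ S ∧ ∃ a ∈ K.cell i, dist (π y) a < g a := by
  classical
  obtain ⟨s, hs, hsep⟩ := exists_gauge_sep K.lfIn K.isClosed_cell
  obtain ⟨ρ₁, f₁, f₁'⟩ := exists_fine₂ hs hg
  obtain ⟨ρ₀, f₀⟩ := exists_fine (hΘ _ f₁.gauge)
  obtain ⟨ρ, f, f'⟩ := exists_fine₂ (hΘ _ f₀.gauge) f₁.gauge
  obtain ⟨δ', hδ', htube⟩ := tube_gauge K f.gauge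
  obtain ⟨δ, fδ, fδ'⟩ := exists_fine₂ hδ' f.gauge
  obtain ⟨δ₀, fe, fe'⟩ := exists_fine₂ (hΘ _ fδ.gauge) fδ.gauge
  refine ⟨{ρ₁, ρ₀, δ, δ₀}, ?_, fun S π hS hπ hm hA => ?_⟩
  · intro r hr
    simp only [Finset.mem_insert, Finset.mem_singleton] at hr
    rcases hr with rfl | rfl | rfl | rfl
    exacts [f₁.gauge, f₀.gauge, fδ.gauge, fe.gauge]
  have A₁ := hA ρ₁ (by simp)
  have A₀ := hA ρ₀ (by simp)
  have Aδ := hA δ (by simp)
  have Ae := hA δ₀ (by simp)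
  choose! q hqS hq using Ae.1
  choose! pt hpt using fun v (hv : K.dim v = 0) => K.exists_vertex hv
  have hptc : ∀ v, K.dim v = 0 → pt v ∈ K.cell v := fun v hv => hpt v hv ▸ rfl
  have hptG : ∀ v, K.dim v = 0 → pt v ∈ K.carrier := fun v hv =>
    K.cell_subset_carrier v (hptc v hv)
  have hqρ : ∀ a ∈ K.carrier, dist (π (q a)) a < ρ a := fun a ha =>
    ((hq a ha).trans_le (fe'.le ha)).trans_le (fδ'.le ha)
  choose! D B hD hDS hDn hDi using fun v (hv : K.dim v = 0) =>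
    vertex_disc hm A₁ A₀ f₁ f₀ f (fun x hx => f'.le hx) (hptG v hv) (hqS _ (hptG v hv))
      (hqρ _ (hptG v hv))
  have hsep' : ∀ y ∈ S, ∀ i j, ∀ a ∈ K.cell i, ∀ b ∈ K.cell j, dist (π y) a < 3 * ρ₁ a →
      dist (π y) b < 3 * ρ₁ b → (K.cell i ∩ K.cell j).Nonempty := by
    intro y hy i j a ha b hb h1 h2
    have hw := hm hy
    obtain ⟨z, _, hz⟩ := hsep _ hw
    have haG := K.cell_subset_carrier i ha
    have hbG := K.cell_subset_carrier j hb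
    have h3 := (f₁.near haG h1).1
    have h4 := (f₁.near hbG h2).1
    have h5 := f₁.lt_self hw
    have h6 := f₁.pos hw
    exact ⟨z, hz i ⟨a, ⟨ha, haG⟩, mem_ball'.mpr (by linarith)⟩,
      hz j ⟨b, ⟨hb, hbG⟩, mem_ball'.mpr (by linarith)⟩⟩
  have hDD : ∀ v u, K.dim v = 0 → K.dim u = 0 → (D v ∩ D u).Nonempty → v = u := by
    rintro v u hv hu ⟨y, h1, h2⟩
    obtain ⟨z, h3, h4⟩ := hsep' y (hDS v hv h1) v u _ (hptc v hv) _ (hptc u hu) (hDn v hv y h1)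
      (hDn u hu y h2)
    exact K.ocell_unique (K.ocell_eq_cell hv ▸ h3) (K.ocell_eq_cell hu ▸ h4)
  have hedge : ∀ e, K.dim e = 1 → ∃ (M : Set E3) (a : K.ι → E3),
      (∀ j₁ j₂, K.cell j₁ ⊆ K.bd e → K.cell j₂ ⊆ K.bd e → j₁ ≠ j₂ → IsArc M (a j₁) (a j₂)) ∧
      (∀ j, K.cell j ⊆ K.bd e → a j ∈ B j ∧ M ∩ D j = {a j}) ∧
      ∀ y ∈ M, y ∈ S ∧ ∃ x ∈ K.cell e, dist (π y) x < 3 * δ x := by
    intro e he
    obtain ⟨x₀, x₁, j₁, j₂, harc, h1, h2, hne, hj⟩ := ends K he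
    have d₁ : K.dim j₁ = 0 := by
      have := K.dim_lt ((hj j₁).mpr (Or.inl rfl))
      omega
    have d₂ : K.dim j₂ = 0 := by
      have := K.dim_lt ((hj j₂).mpr (Or.inr rfl))
      omega
    obtain rfl : x₀ = pt j₁ := singleton_injective (h1.symm.trans (hpt j₁ d₁))
    obtain rfl : x₁ = pt j₂ := singleton_injective (h2.symm.trans (hpt j₂ d₂))
    have m₁ := (hDi j₁ d₁ _ (hqS _ (hptG j₁ d₁)) (hqρ _ (hptG j₁ d₁))).1
    have m₂ := (hDi j₂ d₂ _ (hqS _ (hptG j₂ d₂)) (hqρ _ (hptG j₂ d₂))).1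
    have hdis : Disjoint (D j₁) (D j₂) :=
      disjoint_left.mpr fun y h3 h4 => hne (hDD j₁ j₂ d₁ d₂ ⟨y, h3, h4⟩)
    obtain ⟨A, hA, hAn⟩ := edge_arc hS hπ hm Aδ fδ fe (fun x hx => fe'.le hx)
      (fun a ha => ⟨hqS a ha, hq a ha⟩) (K.cell_subset_carrier e) harc.isConnected.isPreconnected
      harc.left_mem harc.right_mem fun h => disjoint_left.mp hdis m₁ (h ▸ m₂)
    obtain ⟨M, a, b, h3, h4, h5, h6, h7, h8⟩ := cut_arc hS hA (fun y hy => (hAn y hy).1)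
      (hD j₁ d₁) (hD j₂ d₂) (hDS j₁ d₁) (hDS j₂ d₂) hdis m₁ m₂
    refine ⟨M, fun j => if j = j₁ then a else b, fun k₁ k₂ h9 h10 h11 => ?_, fun j h9 => ?_,
      fun y hy => hAn y (h4 hy)⟩
    · rcases (hj k₁).mp h9 with rfl | rfl <;> rcases (hj k₂).mp h10 with rfl | rfl
      · exact absurd rfl h11
      · beta_reduce
        rwa [if_pos rfl, if_neg hne.symm]
      · beta_reduce
        rw [if_pos rfl, if_neg hne.symm]
        exact h3.symm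
      · exact absurd rfl h11
    · beta_reduce
      rcases (hj j).mp h9 with rfl | rfl
      · rw [if_pos rfl]
        exact ⟨h5, h6⟩
      · rw [if_neg hne.symm]
        exact ⟨h7, h8⟩
  choose! M a hM ha hMn using hedge
  have hMn' : ∀ e, K.dim e = 1 → ∀ y ∈ M e, y ∈ S ∧ ∃ x ∈ K.cell e, dist (π y) x < 3 * ρ₁ x := by
    intro e he y hy
    obtain ⟨h1, x, hx, h2⟩ := hMn e he y hy
    have hxG := K.cell_subset_carrier e hx
    exact ⟨h1, x, hx, by linarith [fδ'.le hxG, f'.le hxG]⟩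
  obtain ⟨R, h1, h2, h3, h4⟩ := assemble K hD hDD hM ha (by
    rintro e v he hv ⟨y, hy, hy'⟩
    obtain ⟨h1, x, hx, h2⟩ := hMn' e he y hy
    obtain ⟨z, h3, h4⟩ := hsep' y h1 v e _ (hptc v hv) x hx (hDn v hv y hy') h2
    exact K.subset_bd_of_dim_lt (K.cell_subset_of_mem (K.ocell_eq_cell hv ▸ h3) h4) (by omega))
    (by
      rintro e e' he he' ⟨y, hy, hy'⟩
      by_contra hne
      obtain ⟨h1, x, hx, h2⟩ := hMn e he y hy
      obtain ⟨_, x', hx', h3⟩ := hMn e' he' y hy'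
      have hw := hm h1
      have h4 := (fδ.near (K.cell_subset_carrier e hx) h2).1
      have h5 := (fδ.near (K.cell_subset_carrier e' hx') h3).1
      have h6 := fδ.lt_self hw
      have h7 := fδ.pos hw
      obtain ⟨z, hz, h8⟩ := htube _ hw e e' he he' hne ⟨x, hx, mem_ball'.mpr (by linarith)⟩
        ⟨x', hx', mem_ball'.mpr (by linarith)⟩
      obtain ⟨v, hv, hvz⟩ := K.vertex_of_mem_bd he hz
      obtain rfl : z = pt v := singleton_injective (hvz.symm.trans (hpt v hv))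
      have h9 := hDi v hv y h1 h8
      obtain ⟨h10, h11⟩ := ha e he v (hvz ▸ singleton_subset_iff.mpr hz)
      have h12 : y ∈ M e ∩ D v := ⟨hy, h9.1⟩
      rw [h11] at h12
      exact h9.2 (h12 ▸ h10))
  have hnear : ∀ i, K.dim i ≤ 1 → ∀ y ∈ R i,
      y ∈ S ∧ ∃ x ∈ K.cell i, dist (π y) x < 3 * ρ₁ x := by
    intro i hi y hy
    rcases Nat.le_one_iff_eq_zero_or_eq_one.mp hi with hi | hi
    · exact ⟨hDS i hi (h3 i hi hy), _, hptc i hi, hDn i hi y (h3 i hi hy)⟩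
    · rcases h4 i hi hy with h5 | h5
      · exact hMn' i hi y h5
      · obtain ⟨j, hj, h6⟩ := K.mem_rbd.mp h5
        have h7 : K.dim j = 0 := by
          have := K.dim_lt hj
          omega
        exact ⟨hDS j h7 h6, _, K.bd_subset i (hj (hptc j h7)), hDn j h7 y h6⟩
  refine ⟨R, ⟨h1, h2, fun y hy => ?_⟩, fun i hi y hy => ?_⟩
  · obtain ⟨i, hi, hyi⟩ := K.mem_rskel.mp hy
    refine f₁.lf hπ hm K.cell_subset_carrier (fun w hw => ?_) hnear (hnear i hi y hyi).1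
    obtain ⟨z, hz, hz'⟩ := hsep w hw
    refine (K.finite_mem hz).subset ?_
    rintro j ⟨x, hx, hx'⟩
    exact hz' j ⟨x, ⟨hx, K.cell_subset_carrier j hx⟩, hx'⟩
  · obtain ⟨h5, x, hx, h6⟩ := hnear i hi y hy
    have hxG := K.cell_subset_carrier i hx
    exact ⟨h5, x, hx, by linarith [f₁'.lt_self hxG, f₁'.pos hxG]⟩

end Apx2

end P073
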